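import Vale.Agent.P181.TL.Defs

set_option autoImplicit false

/-!
# P181, TL+: two long rows and an ARBITRARY tail (helper540's lift)

The heads need only `λ_3` cells of row two. The contents are taken close to `t / (a q)`, so that
the sizes cost `t + o(a ^ 2) + (labels)`.
-/

open MvPolynomial

namespace Vale.Agent.P181.TL

open Vale.Agent.P181.T4 (HW)
open Vale.Agent.P181.H280 (plethMult)
open Vale.Agent.P181.SZ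

/-- **(T4+)** the lift of helper540 (#14197). -/
def LiftC : Prop := ∀ (k L : ℕ) (ι η : Type) [Fintype ι] [Fintype η] (s : ι → ℕ) (p r : η → ℕ)
  (tau : Fin (k + 1) → ℕ) (KS : Finset (ι → ℕ)),
  (∀ j h, s j < p h) → (∀ h, r h ≤ p h) → ∑ h, r h = tau 0 → (∀ c ∈ KS, ∀ j, c j ≤ s j) →
  (∀ c ∈ KS, ∑ j, c j = ∑ i, tau i) →
  (∀ c ∈ KS, ∀ c' ∈ KS, ∀ j j', s j = s j' → j ≠ j' → c j ≠ c' j') →
  ∑ j, s j + ∑ h, p h = L + ∑ i, tau i →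
  ∑ c ∈ KS, Module.finrank ℂ (KK (k + 1) ι c tau) ≤
    Module.finrank ℂ (PK (k + 2) (ι ⊕ η) (Sum.elim s p) (Fin.cons L tau))

/-- **(T5a+)** `KeyB` with the sharper bound for the contents. -/
def KeyP : Prop := ∀ (a q m X t : ℕ), 0 < a → 2 ≤ q → 1 ≤ m → 1 ≤ X → 2 * m * q * X ≤ t / a / q →
  ∃ KS : Finset (Fin a × Fin q → ℕ),
    (∀ c ∈ KS, ∀ i : Fin a, ∑ r, c (i, r) = t / a + if (i : ℕ) < t % a then 1 else 0) ∧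
    (∀ c ∈ KS, ∀ j, c j ≤ t / a / q + q + 2 * m * q * X) ∧
    (∀ c ∈ KS, ∀ c' ∈ KS, ∀ j j' : Fin a × Fin q, (j.1 : ℕ) / m = (j'.1 : ℕ) / m → j.2 = j'.2 →
      j ≠ j' → c j ≠ c' j') ∧
    X ^ ((q - 1) * a) ≤ KS.card

/-- **(T5b+)** sizes and heads; `M` bounds the contents, `R = λ_3`. -/
def SizeP : Prop := ∀ (a b q m w M R : ℕ), 0 < a → 1 ≤ q → 1 ≤ m → 1 ≤ M →
  2 * (M + q * (a / m) + q + 1) ≤ a → q * a * (M + q * (a / m) + q) + R + 2 * a ≤ w →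
  3 * q * a + 3 * (w / a) + 3 ≤ b →
  ∃ (H : ℕ) (s : Fin a × Fin q → ℕ) (p r : Fin H → ℕ),
    (∀ j, M < s j) ∧ (∀ j h, s j < p h) ∧ (∀ h, p h ≤ a) ∧ (∀ h, r h ≤ p h) ∧ ∑ h, r h = R ∧
    3 * (a * q + H) ≤ b ∧ ∑ j, s j + ∑ h, p h = w ∧
    ∀ j j' : Fin a × Fin q, s j = s j' → (j.1 : ℕ) / m = (j'.1 : ℕ) / m ∧ j.2 = j'.2

/-- **(T6+)** lower bound (from T3, T4+, T5a+, T5b+, `LowerS`, `TransS`). -/
def LowP : Prop := ∀ (a b k q m X : ℕ) (lam : Fin (k + 3) → ℕ) (f : Fin a → ℕ),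
  ∑ i, lam i = a * b → 0 < a → 2 ≤ q → 1 ≤ m → 1 ≤ X →
  2 * m * q * X ≤ (∑ i : Fin (k + 1), lam i.succ.succ) / a / q →
  (∀ i : Fin a, f i = (∑ i : Fin (k + 1), lam i.succ.succ) / a +
    if (i : ℕ) < (∑ i : Fin (k + 1), lam i.succ.succ) % a then 1 else 0) →
  2 * ((∑ i : Fin (k + 1), lam i.succ.succ) / a / q + q + 2 * m * q * X + q * (a / m) + q + 1)
    ≤ a →
  q * a * ((∑ i : Fin (k + 1), lam i.succ.succ) / a / q + q + 2 * m * q * X + q * (a / m) + q) +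
    lam 2 + 2 * a ≤ ∑ i, tl lam i →
  3 * q * a + 3 * ((∑ i, tl lam i) / a) + 3 ≤ b →
  X ^ ((q - 1) * a) * Module.finrank ℂ (KK (k + 1) (Fin a) f fun i => lam i.succ.succ) ≤
    plethMult b a (k + 3) lam

/-- **(G+)** growth, pure numbers. -/
def GrowP : Prop := ∀ (a b q t X : ℕ), 0 < a → 5 ≤ q → 1 ≤ X →
  9 * (a + b) * (a + t) ≤ a ^ 2 * X ^ 4 →
  (a + b).choose a * (a + t - 1).choose t ≤ X ^ ((q - 1) * a)

/-- **(E+)** all shapes with two long rows, arbitrary tail, `q = 5 + 16 t / a ^ 2`. -/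
def CoreP : Prop := ∀ (a b k q m X L : ℕ) (lam : Fin (k + 3) → ℕ), ∑ i, lam i = a * b → 3 ≤ a →
  q = 5 + 16 * dn2 lam / a ^ 2 → 8 * q ≤ m → 40 * q ≤ a → 1 ≤ X →
  2 * m * q * X ≤ dn2 lam / a / q → 9 * (a + b) * (a + dn2 lam) ≤ a ^ 2 * X ^ 4 →
  L = lam 2 + 2 * q ^ 2 * a + 2 * m * q ^ 2 * X * a + q ^ 2 * a * (a / m) + 2 * a →
  L ≤ lam 1 → lam 1 + 3 * q * a ^ 2 + L + 2 * dn2 lam + 5 * a ≤ lam 0 →
  plethMult a b (k + 3) lam ≤ plethMult b a (k + 3) lam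

/-- **(T8+)** final form 1. -/
def TwoLongA : Prop := ∀ θ : ℝ, 0 < θ → ∃ C : ℝ, 0 < C ∧ ∀ (a b k : ℕ) (lam : Fin (k + 3) → ℕ),
  Antitone lam → ∑ i, lam i = a * b → C * a ≤ b →
  (lam 2 : ℝ) + θ * (a : ℝ) ^ 2 ≤ lam 1 →
  lam 1 + 60 * dn2 lam + 17 * a ^ 2 ≤ lam 0 →
  plethMult a b (k + 3) lam ≤ plethMult b a (k + 3) lam

/-- **(T9+)** final form 2: the polylogarithmic window. -/
def TwoLongPA : Prop := ∀ C₀ c₀ : ℝ, 0 < C₀ → 0 ≤ c₀ → ∃ C c : ℝ, 0 < C ∧ 0 < c ∧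
  ∀ (a b k : ℕ) (lam : Fin (k + 3) → ℕ), Antitone lam → ∑ i, lam i = a * b → 0 < a →
  (a : ℝ) ^ 2 ≤ C₀ * (1 + Real.log a) ^ c₀ * ((lam 1 : ℝ) - lam 2) →
  C * (1 + Real.log a) ^ c * a ≤ dn2 lam →
  lam 1 + 60 * dn2 lam + 17 * a ^ 2 ≤ lam 0 →
  plethMult a b (k + 3) lam ≤ plethMult b a (k + 3) lam

end Vale.Agent.P181.TL
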