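import Vale.Agent.P181.SZ.Defs

set_option autoImplicit false

/-!
# P181, TL: two long rows and an arbitrary tail, `b ≥ C a`: the literals

`t` is the number of boxes below row two, `τ` the rows below row two, `w` the number of boxes below
row one. The `a` letters carry the tail with balanced contents `f`, each letter is cut in `q`
pieces, `q - 1` of them with `X` free values. The pieces get pairwise different pairs (size,
content); big heads make every tail polynomial a highest weight polynomial.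
-/

open MvPolynomial

namespace Vale.Agent.P181.TL

open Vale.Agent.P181.T4 (HW)
open Vale.Agent.P181.H280 (plethMult)
open Vale.Agent.P181.SZ

/-- The highest weight polynomials of weight `mu` in the entries of an `m × σ` matrix, of degree
`d j` in the column `j`. -/
noncomputable def KK (m : ℕ) (σ : Type) [Fintype σ] (d : σ → ℕ) (mu : Fin m → ℕ) :
    Submodule ℂ (MvPolynomial (Fin m × σ) ℂ) where
  carrier := {f | f ∈ HW m σ mu ∧ ∀ v, coeff v f ≠ 0 → ∀ j, ∑ i, v (i, j) = d j}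
  zero_mem' := ⟨zero_mem _, fun v hv => absurd (coeff_zero v) hv⟩
  add_mem' := by
    rintro f g ⟨hf1, hf2⟩ ⟨hg1, hg2⟩
    refine ⟨add_mem hf1 hg1, fun v hv j => ?_⟩
    rw [coeff_add] at hv
    by_cases h : coeff v f = 0
    · rw [h, zero_add] at hv
      exact hg2 v hv j
    · exact hf2 v h j
  smul_mem' := by
    rintro c f ⟨hf1, hf2⟩
    refine ⟨Submodule.smul_mem _ c hf1, fun v hv j => ?_⟩
    rw [coeff_smul, smul_eq_mul] at hv
    exact hf2 v (right_ne_zero_of_mul hv) j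

/-- **(T1)** upper bound: sort the `a` letters by their degree in row two. -/
def UpB : Prop := ∀ (a b k : ℕ) (lam : Fin (k + 2) → ℕ),
  plethMult a b (k + 2) lam ≤
    (a + b).choose a * Module.finrank ℂ (HW k (Fin a) fun i => lam i.succ.succ)

/-- **(T2)** the balanced content has the largest multiplicity. -/
def BalB : Prop := ∀ (k a : ℕ) (tau : Fin k → ℕ) (f : Fin a → ℕ), 0 < a →
  (∀ i j, f i ≤ f j + 1) → ∑ i, f i = ∑ i, tau i →
  Module.finrank ℂ (HW k (Fin a) tau) ≤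
    (a + ∑ i, tau i - 1).choose (∑ i, tau i) * Module.finrank ℂ (KK k (Fin a) f tau)

/-- **(T3)** refinement of the contents. -/
def RefB : Prop := ∀ (k : ℕ) (α β : Type) [Fintype α] [Fintype β] (c : α → ℕ) (u : α × β → ℕ)
  (tau : Fin k → ℕ), (∀ i, ∑ r, u (i, r) = c i) →
  Module.finrank ℂ (KK k α c tau) ≤ Module.finrank ℂ (KK k (α × β) u tau)

open scoped Classical in
/-- **(T4)** the lift: letters `ι` of sizes `s`, larger heads `η` of sizes `p`, the piece `j` uses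
the head `l j`; the contents in `KS` can be read off from (size, content). -/
def LiftB : Prop := ∀ (k L : ℕ) (ι η : Type) [Fintype ι] [Fintype η] (s : ι → ℕ) (p : η → ℕ)
  (l : ι → η) (tau : Fin k → ℕ) (KS : Finset (ι → ℕ)),
  (∀ j h, s j < p h) → (∀ c ∈ KS, ∀ j, c j ≤ s j) → (∀ c ∈ KS, ∑ j, c j = ∑ i, tau i) →
  (∀ c ∈ KS, ∀ h, ∑ j ∈ Finset.univ.filter (fun j => l j = h), c j ≤ p h) →
  (∀ c ∈ KS, ∀ c' ∈ KS, ∀ j j', s j = s j' → j ≠ j' → c j ≠ c' j') →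
  ∑ j, s j + ∑ h, p h = L + ∑ i, tau i →
  ∑ c ∈ KS, Module.finrank ℂ (KK k ι c tau) ≤
    Module.finrank ℂ (PK (k + 1) (ι ⊕ η) (Sum.elim s p) (Fin.cons L tau))

/-- **(T5a)** the contents: each of the `a` balanced numbers is cut in `q` pieces, `q - 1` of them
with `X` values. -/
def KeyB : Prop := ∀ (a q m X t : ℕ), 0 < a → 2 ≤ q → 1 ≤ m → 1 ≤ X → 2 * m * q * X ≤ t / a / q →
  ∃ KS : Finset (Fin a × Fin q → ℕ),
    (∀ c ∈ KS, ∀ i : Fin a, ∑ r, c (i, r) = t / a + if (i : ℕ) < t % a then 1 else 0) ∧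
    (∀ c ∈ KS, ∀ j, c j ≤ 2 * (t / a / q) + q) ∧
    (∀ c ∈ KS, ∀ c' ∈ KS, ∀ j j' : Fin a × Fin q, (j.1 : ℕ) / m = (j'.1 : ℕ) / m → j.2 = j'.2 →
      j ≠ j' → c j ≠ c' j') ∧
    X ^ ((q - 1) * a) ≤ KS.card

open scoped Classical in
/-- **(T5b)** the sizes and the heads; `M` bounds the contents. -/
def SizeB : Prop := ∀ (a b q m w M : ℕ), 0 < a → 1 ≤ q → 1 ≤ m → 1 ≤ M →
  2 * (M + q * (a / m) + q + 1) ≤ a → q * a * (M + q * (a / m) + q) + 4 * M * q * a ≤ w →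
  3 * q * a + 3 * (w / a) + 3 ≤ b →
  ∃ (H : ℕ) (s : Fin a × Fin q → ℕ) (p : Fin H → ℕ) (l : Fin a × Fin q → Fin H),
    (∀ j, M < s j) ∧ (∀ j h, s j < p h) ∧ (∀ h, p h ≤ a) ∧ 3 * (a * q + H) ≤ b ∧
    ∑ j, s j + ∑ h, p h = w ∧
    (∀ j j' : Fin a × Fin q, s j = s j' → (j.1 : ℕ) / m = (j'.1 : ℕ) / m ∧ j.2 = j'.2) ∧
    ∀ h, (Finset.univ.filter fun j => l j = h).card * M ≤ p h

/-- **(T6)** lower bound (from T3, T4, T5a, T5b, `LowerS`, `TransS`). -/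
def LowB : Prop := ∀ (a b k q m X : ℕ) (lam : Fin (k + 2) → ℕ) (f : Fin a → ℕ),
  ∑ i, lam i = a * b → 0 < a → 2 ≤ q → 1 ≤ m → 1 ≤ X →
  2 * m * q * X ≤ (∑ i : Fin k, lam i.succ.succ) / a / q →
  (∀ i : Fin a, f i = (∑ i : Fin k, lam i.succ.succ) / a +
    if (i : ℕ) < (∑ i : Fin k, lam i.succ.succ) % a then 1 else 0) →
  2 * (2 * ((∑ i : Fin k, lam i.succ.succ) / a / q) + q + q * (a / m) + q + 1) ≤ a →
  q * a * (2 * ((∑ i : Fin k, lam i.succ.succ) / a / q) + q + q * (a / m) + q) +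
    4 * (2 * ((∑ i : Fin k, lam i.succ.succ) / a / q) + q) * q * a ≤ ∑ i, tl lam i →
  3 * q * a + 3 * ((∑ i, tl lam i) / a) + 3 ≤ b →
  X ^ ((q - 1) * a) * Module.finrank ℂ (KK k (Fin a) f fun i => lam i.succ.succ) ≤
    plethMult b a (k + 2) lam

/-- The number of boxes below row two. -/
def dn2 {k : ℕ} (lam : Fin (k + 2) → ℕ) : ℕ := ∑ i : Fin k, lam i.succ.succ

/-- **(T7)** the numbers behind `CoreN`. -/
def CoreN : Prop := ∀ (a b k q m X : ℕ) (lam : Fin (k + 2) → ℕ),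
  ∑ i, lam i = a * b → 0 < a → 2 ≤ q → 1 ≤ m → 1 ≤ X → 2 * m * q * X ≤ dn2 lam / a / q →
  2 * (2 * (dn2 lam / a / q) + q + q * (a / m) + q + 1) ≤ a →
  q * a * (2 * (dn2 lam / a / q) + q + q * (a / m) + q) +
    4 * (2 * (dn2 lam / a / q) + q) * q * a ≤ ∑ i, tl lam i →
  3 * q * a + 3 * ((∑ i, tl lam i) / a) + 3 ≤ b →
  (a + b).choose a * (a + dn2 lam - 1).choose (dn2 lam) ≤ X ^ ((q - 1) * a) →
  plethMult a b (k + 2) lam ≤ plethMult b a (k + 2) lam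

/-- **(T8)** final form 1. -/
def TwoLong : Prop := ∀ θ : ℝ, 0 < θ → ∃ C : ℝ, 0 < C ∧ ∀ (a b k : ℕ) (lam : Fin (k + 2) → ℕ),
  Antitone lam → ∑ i, lam i = a * b → C * a ≤ b → θ * (a : ℝ) ^ 2 ≤ lam 1 →
  400 * dn2 lam ≤ lam 1 → 4 * ∑ i, tl lam i ≤ a * b →
  plethMult a b (k + 2) lam ≤ plethMult b a (k + 2) lam

/-- **(T7b)** the same in natural numbers, `q = 5 + 16 t / a ^ 2`. -/
def CoreW : Prop := ∀ (a b k q m : ℕ) (lam : Fin (k + 2) → ℕ), Antitone lam →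
  ∑ i, lam i = a * b → 0 < a → q = 5 + 16 * dn2 lam / a ^ 2 → 8 * q ≤ m →
  4 * q ^ 2 * a ^ 2 ≤ m * lam 1 → 24 * q ^ 2 * a ≤ lam 1 → 40 * q ≤ a →
  400 * dn2 lam ≤ lam 1 → 4 * ∑ i, tl lam i ≤ a * b → 100 * a ≤ b → b ≤ dn2 lam + a →
  10 ^ 6 * (m * q ^ 2) ^ 2 * a ≤ dn2 lam →
  plethMult a b (k + 2) lam ≤ plethMult b a (k + 2) lam

/-- **(T9)** final form 2: the polylogarithmic window. -/
def TwoLongP : Prop := ∀ C₀ c₀ : ℝ, 0 < C₀ → 0 ≤ c₀ → ∃ C c : ℝ, 0 < C ∧ 0 < c ∧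
  ∀ (a b k : ℕ) (lam : Fin (k + 2) → ℕ),
  Antitone lam → ∑ i, lam i = a * b → 0 < a → 100 * a ≤ b →
  (a : ℝ) ^ 2 ≤ C₀ * (1 + Real.log a) ^ c₀ * lam 1 →
  C * (1 + Real.log a) ^ c * a ≤ dn2 lam → 400 * dn2 lam ≤ lam 1 →
  4 * ∑ i, tl lam i ≤ a * b →
  plethMult a b (k + 2) lam ≤ plethMult b a (k + 2) lam

end Vale.Agent.P181.TL
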