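import Vale.Agent.P181.TL.Defs

set_option autoImplicit false

/-!
# P181, TL: the stronger final forms (the rest of the two long rows is split off)

`plethMult_mul` (R2/H959/FMul) with `pos_E_mul` (H502/Dec, `j = 2`, `c = β`) replaces `λ` by
`λ - 2 a β (1, 1, 0, ..)` and `b` by `b - 4 β`.
-/

open MvPolynomial

namespace Vale.Agent.P181.TL

open Vale.Agent.P181.T4 (HW)
open Vale.Agent.P181.H280 (plethMult)
open Vale.Agent.P181.SZ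

/-- **(G)** growth, pure numbers. -/
def GrowB : Prop := ∀ (a b q m t : ℕ), 0 < a → 5 ≤ q → 8 * q ≤ m → b ≤ t + a →
  10 ^ 6 * (m * q ^ 2) ^ 2 * a ≤ t →
  (a + b).choose a * (a + t - 1).choose t ≤ (t / a / q / (2 * m * q)) ^ ((q - 1) * a)

/-- **(E)** all shapes with two long rows, `q = 5 + 16 t / a ^ 2`. -/
def CoreE : Prop := ∀ (a b k q m : ℕ) (lam : Fin (k + 2) → ℕ), ∑ i, lam i = a * b → 3 ≤ a →
  q = 5 + 16 * dn2 lam / a ^ 2 → 8 * q ≤ m → 40 * q ≤ a →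
  9 * dn2 lam + 6 * q ^ 2 * a + q ^ 2 * a * (a / m) ≤ lam 1 →
  lam 1 + 3 * q * a ^ 2 + 11 * dn2 lam + 6 * q ^ 2 * a + q ^ 2 * a * (a / m) + 5 * a ≤ lam 0 →
  b ≤ dn2 lam + a → 10 ^ 6 * (m * q ^ 2) ^ 2 * a ≤ dn2 lam →
  plethMult a b (k + 2) lam ≤ plethMult b a (k + 2) lam

/-- **(T8E)** final form 1. -/
def TwoLongE : Prop := ∀ θ : ℝ, 0 < θ → ∃ C : ℝ, 0 < C ∧ ∀ (a b k : ℕ) (lam : Fin (k + 2) → ℕ),
  Antitone lam → ∑ i, lam i = a * b → C * a ≤ b →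
  9 * (dn2 lam : ℝ) + θ * (a : ℝ) ^ 2 ≤ lam 1 →
  lam 1 + 60 * dn2 lam + 17 * a ^ 2 ≤ lam 0 →
  plethMult a b (k + 2) lam ≤ plethMult b a (k + 2) lam

/-- **(T9E)** final form 2: the polylogarithmic window. -/
def TwoLongPE : Prop := ∀ C₀ c₀ : ℝ, 0 < C₀ → 0 ≤ c₀ → ∃ C c : ℝ, 0 < C ∧ 0 < c ∧
  ∀ (a b k : ℕ) (lam : Fin (k + 2) → ℕ), Antitone lam → ∑ i, lam i = a * b → 0 < a →
  (a : ℝ) ^ 2 ≤ C₀ * (1 + Real.log a) ^ c₀ * ((lam 1 : ℝ) - 9 * dn2 lam) →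
  C * (1 + Real.log a) ^ c * a ≤ dn2 lam →
  lam 1 + 60 * dn2 lam + 17 * a ^ 2 ≤ lam 0 →
  plethMult a b (k + 2) lam ≤ plethMult b a (k + 2) lam

end Vale.Agent.P181.TL
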